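import Vale.Agent.N078T.Rep
import Vale.Agent.P078.Bdl.Fast

set_option linter.all false
attribute [local instance] Vale.Agent.P078.Fast.a01 Vale.Agent.P078.Fast.a02
  Vale.Agent.P078.Fast.a03 Vale.Agent.P078.Fast.a04 Vale.Agent.P078.Fast.a05
  Vale.Agent.P078.Fast.a06 Vale.Agent.P078.Fast.a07 Vale.Agent.P078.Fast.a08
  Vale.Agent.P078.Fast.a09 Vale.Agent.P078.Fast.a10 Vale.Agent.P078.Fast.a11
  Vale.Agent.P078.Fast.a12 Vale.Agent.P078.Fast.a13 Vale.Agent.P078.Fast.a14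
  Vale.Agent.P078.Fast.a15 Vale.Agent.P078.Fast.a16 Vale.Agent.P078.Fast.a17
  Vale.Agent.P078.Fast.a18 Vale.Agent.P078.Fast.a19 Vale.Agent.P078.Fast.a20
  Vale.Agent.P078.Fast.a21 Vale.Agent.P078.Fast.a22 Vale.Agent.P078.Fast.a23
  Vale.Agent.P078.Fast.a24 Vale.Agent.P078.Fast.a25 Vale.Agent.P078.Fast.a26
  Vale.Agent.P078.Fast.a27 Vale.Agent.P078.Fast.a28 Vale.Agent.P078.Fast.a29
  Vale.Agent.P078.Fast.a30 Vale.Agent.P078.Fast.a31 Vale.Agent.P078.Fast.a32
  Vale.Agent.P078.Fast.a33 Vale.Agent.P078.Fast.a34 Vale.Agent.P078.Fast.a35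
  Vale.Agent.P078.Fast.a36 Vale.Agent.P078.Fast.a37 Vale.Agent.P078.Fast.a38
  Vale.Agent.P078.Fast.a39 Vale.Agent.P078.Fast.a40 Vale.Agent.P078.Fast.a41
  Vale.Agent.P078.Fast.a42 Vale.Agent.P078.Fast.a43 Vale.Agent.P078.Fast.a44
  Vale.Agent.P078.Fast.a45 Vale.Agent.P078.Fast.a46 Vale.Agent.P078.Fast.a47
  Vale.Agent.P078.Fast.a48 Vale.Agent.P078.Fast.a49 Vale.Agent.P078.Fast.a50
  Vale.Agent.P078.Fast.a51 Vale.Agent.P078.Fast.a52 Vale.Agent.P078.Fast.a53
  Vale.Agent.P078.Fast.a54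


/-! The quadratic lower bound for every inclusion, from the estimate in standard form. -/

namespace Vale.Agent.P078.TT

open Filter Topology Vale.Agent.P132 Vale.Agent.P078.WG Vale.Agent.P078.C Vale.Agent.P078.G
open scoped InnerProductSpace

universe u

variable {H : Type u} [NormedAddCommGroup H] [InnerProductSpace ℂ H] [CompleteSpace H]
variable {M A : VonNeumannAlgebra H}

/-- equivalent projections under orthogonal projections of `A z` -/
theorem units_of_not_sum (hA : SO.IsMASA A M) {z : H →L[ℂ] H} (hz : z ∈ A)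
    (hzp : IsStarProjection z) (hinf : ∀ N, ¬ SumAbelian M A.toStarSubalgebra z N) (n : ℕ) :
    Units M A z n := by
  classical
  by_cases hab : ∀ w ∈ A, IsStarProjection w → z * w = w → w ≠ 0 →
      ∃ g, AbProj M A g ∧ g ≠ 0 ∧ w * g = g
  · obtain ⟨e, he, ho, hb⟩ := exists_family (M := M) hA hz hzp n
    obtain ⟨s, hs⟩ : ∃ s, s = ∑ i, e i := ⟨_, rfl⟩
    have hsA : s ∈ A := by rw [hs]; exact sum_mem fun i _ => (he i).1.1
    have hsp : IsStarProjection s := by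
      rw [hs]; exact isStarProjection_sum (fun i => (he i).1.2.1) ho
    have hzs : z * s = s := by
      rw [hs, Finset.mul_sum]
      exact Finset.sum_congr rfl fun i _ => (he i).2
    have hzz : z * z = z := hzp.isIdempotentElem.eq
    have hes : ∀ i, e i * s = e i := by
      intro i
      rw [hs, Finset.mul_sum, Finset.sum_eq_single i]
      · exact (he i).1.2.1.isIdempotentElem.eq
      · intro j _ hj
        exact ho i j hj.symm
      · intro hi
        exact absurd (Finset.mem_univ i) hi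
    have hez : ∀ i, e i * z = e i := fun i => by rw [hA.2.1 _ (he i).1.1 _ hz, (he i).2]
    have hwp : IsStarProjection (z - s) := sub_proj_of_le hzp hsp hzs
    have hzw : z * (z - s) = z - s := by rw [mul_sub, hzz, hzs]
    have hw0 : z - s ≠ 0 := fun h0 => hinf n
      ⟨e, fun i => (he i).1, ho, by rw [← hs]; exact (sub_eq_zero.1 h0).symm⟩
    obtain ⟨g, hg, hg0, hwg⟩ := hab (z - s) (sub_mem hz hsA) hwp hzw hw0
    have hzg : z * g = g := by rw [← hwg, ← mul_assoc, hzw]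
    have heg : ∀ i, e i * g = 0 := fun i => by
      rw [← hwg, ← mul_assoc, mul_sub, hez, hes, sub_self, zero_mul]
    obtain ⟨g', hg', hg'0, hgg', v, hv⟩ := exists_units hA he hb hg hzg heg hg0 Finset.univ
    exact ⟨g', e, v, hA.1 _ hg'.1, hg'.2.1, hg'0, by rw [← hgg', ← mul_assoc, hzg],
      fun i => ⟨(he i).1.1, (he i).1.2.1, (he i).2⟩, ho, fun i =>
      ⟨(hv i (Finset.mem_univ i)).1, (hv i (Finset.mem_univ i)).2.2.2,
        (hv i (Finset.mem_univ i)).2.1⟩⟩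
  · push Not at hab
    obtain ⟨w, hw, hwp, hzw, hw0, hnab⟩ := hab
    obtain ⟨g, e, v, h1, h2, h3, h7, h4, h5, h6⟩ := units_diffuse hA n w hw hwp hw0
      fun g hg hgp hwg hg0 hx => hnab g ⟨hg, hgp, hx⟩ hg0 hwg
    exact ⟨g, e, v, h1, h2, h3, by rw [← h7, ← mul_assoc, hzw],
      fun i => ⟨(h4 i).1, (h4 i).2.1, by rw [← (h4 i).2.2, ← mul_assoc, hzw]⟩, h5, h6⟩

/-- the functional given by a vector and the expectation -/
theorem exists_psi (hA : SO.IsMASA A M) {p : H →L[ℂ] H} (hpA : p ∈ A) (hp : IsStarProjection p)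
    {E : (H →L[ℂ] H) →ₗ[ℂ] (H →L[ℂ] H)} (hE : IsNormalExpectation M A.toStarSubalgebra p E)
    (η : H) : ∃ ψ : (H →L[ℂ] H) →ₗ[ℂ] ℂ, CentralNormal M A.toStarSubalgebra ψ ∧
      ∀ a ∈ A, p * a = a → ψ a = ⟪η, a η⟫_ℂ := by
  have hpp : p * p = p := hp.isIdempotentElem
  have hpM : p ∈ M := hA.1 p hpA
  have hcor : ∀ x, p * (p * x * p) * p = p * x * p := fun x => by
    have : p * (p * x * p) * p = (p * p) * x * (p * p) := by noncomm_ring
    rw [this, hpp]
  have hcM : ∀ x ∈ M, p * x * p ∈ M := fun x hx => mul_mem (mul_mem hpM hx) hpM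
  let ψ : (H →L[ℂ] H) →ₗ[ℂ] ℂ :=
    { toFun := fun x => ⟪η, E (p * x * p) η⟫_ℂ
      map_add' := fun x y => by
        rw [mul_add, add_mul, map_add, _root_.add_apply, inner_add_right]
      map_smul' := fun c x => by
        rw [mul_smul_comm, smul_mul_assoc, map_smul, _root_.smul_apply, inner_smul_right,
          RingHom.id_apply, smul_eq_mul] }
  have hψ : ∀ x, ψ x = ⟪η, E (p * x * p) η⟫_ℂ := fun x => rfl
  have hpos : PosOn M ψ := by
    intro x hx hx0
    have h1 : 0 ≤ E (p * x * p) := hE.nonneg _ (hcM x hx) (hcor x) (conj_nonneg' hp hx0)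
    refine ⟨by rw [hψ]; exact inner_nonneg_of_nonneg h1 _, ?_⟩
    rw [hψ]
    have h2 := (IsSelfAdjoint.of_nonneg h1).star_eq
    have h3 : (starRingEnd ℂ) ⟪η, E (p * x * p) η⟫_ℂ = ⟪η, E (p * x * p) η⟫_ℂ := by
      rw [inner_conj_symm]
      conv_lhs => rw [← h2]
      exact star_apply_inner _ _ _
    exact Complex.conj_eq_iff_im.1 h3
  have hcen : ∀ f ∈ A.toStarSubalgebra, IsStarProjection f → ∀ x ∈ M, ψ (f * x) = ψ (x * f) := by
    intro f hf _ x hx
    have h1 : p * (f * x) * p = f * (p * x * p) * 1 := by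
      rw [mul_one, ← mul_assoc, hA.2.1 p hpA f hf]; noncomm_ring
    have h2 : p * (x * f) * p = 1 * (p * x * p) * f := by
      rw [one_mul, mul_assoc, mul_assoc, ← hA.2.1 p hpA f hf]; noncomm_ring
    rw [hψ, hψ, h1, h2, hE.bimod f hf 1 (one_mem A) _ (hcM x hx) (hcor x),
      hE.bimod 1 (one_mem A) f hf _ (hcM x hx) (hcor x), mul_one, one_mul,
      hA.2.1 f hf _ (hE.mem _ (hcM x hx) (hcor x)).1]
  have hnorm : ProjNormal M ψ := by
    intro D hne hdir hD g hg ε hε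
    have h1 : IsLUB ((fun d => p * d * p) '' D) (p * g * p) := isLUB_conj hp hne hdir hg
    have h2 : DirectedOn (· ≤ ·) ((fun d => p * d * p) '' D) :=
      directedOn_image_of_mono hdir fun x _ y _ hxy => conj_mono' hp hxy
    have h3 : ∀ x ∈ (fun d => p * d * p) '' D, x ∈ M ∧ p * x * p = x := by
      rintro _ ⟨d, hd, rfl⟩
      exact ⟨hcM d (hD d hd).1, hcor d⟩
    have h4 := hE.normal _ (hne.image _) h2 h3 _ h1
    have h5 : DirectedOn (· ≤ ·) (E '' ((fun d => p * d * p) '' D)) := by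
      refine directedOn_image_of_mono h2 fun x hx y hy hxy => ?_
      have h6 := hE.nonneg (y - x) (sub_mem (h3 y hy).1 (h3 x hx).1)
        (by rw [mul_sub, sub_mul, (h3 y hy).2, (h3 x hx).2]) (sub_nonneg.2 hxy)
      rw [map_sub] at h6
      exact sub_nonneg.1 h6
    obtain ⟨l, hl1, hl2, -, -, hl5⟩ := tendsto_of_isLUB ((hne.image _).image _) h5 h4
    have h7 := (Complex.continuous_re.tendsto _).comp (hl5 η η)
    have h8 : ∀ᶠ x : H →L[ℂ] H in l, (⟪η, E (p * g * p) η⟫_ℂ).re - ε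
        < (⟪η, x η⟫_ℂ).re := h7.eventually (lt_mem_nhds (sub_lt_self _ hε))
    obtain ⟨x, hx, hxl⟩ := (h8.and hl2).exists
    obtain ⟨_, ⟨d, hd, rfl⟩, rfl⟩ := hxl
    exact ⟨d, hd, hx⟩
  refine ⟨ψ, ⟨hpos, hcen, hpos.wcont hnorm⟩, fun a ha hpa => ?_⟩
  have h2 : p * a * p = a := by rw [hpa, ← hA.2.1 p hpA a ha, hpa]
  rw [hψ, h2, hE.idem a ha hpa]

/-- the estimate in standard form -/
def CoreStmt (c : ℝ) : Prop :=
  ∀ (L : Type u) [NormedAddCommGroup L] [InnerProductSpace ℂ L] [CompleteSpace L]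
    (N B : VonNeumannAlgebra L) (ω : L) (_ : ModData N ω), SO.IsMASA B N → Cen N B ω →
    ∀ (m : ℕ) (q : Fin (2 ^ m) → (L →L[ℂ] L)), (∀ k, q k ∈ B ∧ IsStarProjection (q k)) →
      (∀ k l, k ≠ l → q k * q l = 0) → ∀ f ∈ B, IsStarProjection f → f ≠ 0 →
      (∀ g ∈ B, IsStarProjection g → f * g = g → g ≠ 0 → ∀ k, ∃ y ∈ N, g * y * q k ≠ 0) →
      Hard N B ω c (1 / 2 ^ m)

/-- one inequality for each system of equivalent projections -/
theorem bound_of_units {c : ℝ} (core : CoreStmt.{u} c) (hA : SO.IsMASA A M) {z : H →L[ℂ] H}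
    (hz : z ∈ A) (hzp : IsStarProjection z) {E : (H →L[ℂ] H) →ₗ[ℂ] (H →L[ℂ] H)}
    (hE : IsNormalExpectation M A.toStarSubalgebra z E) {ε : ℝ} (hε : 0 ≤ ε) {r : ℕ}
    (hpave : ∀ x ∈ M, IsSelfAdjoint x → SOPavable M A.toStarSubalgebra 1 x ε r) {m : ℕ}
    (hU : Units M A z (2 ^ m)) (k : ℕ) :
    c / ((r ^ k : ℕ) : ℝ) - 1 / 2 ^ m ≤ 4 * (ε ^ k) ^ 2 := by
  classical
  obtain ⟨g, e, v, hgM, hgp, hg0, -, he, ho, hv⟩ := hU
  obtain ⟨ζ, hgζ, hζ⟩ := exists_unit_of_proj hgp hg0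
  have hζ0 : ζ ≠ 0 := by
    rintro rfl
    rw [norm_zero] at hζ
    exact zero_ne_one hζ
  let k0 : Fin (2 ^ m) := ⟨0, by positivity⟩
  obtain ⟨η0, hη0⟩ : ∃ η0, η0 = ∑ l, v l ζ := ⟨_, rfl⟩
  have hev : ∀ l, e l (v l ζ) = v l ζ := fun l => DFunLike.congr_fun (hv l).2.1 ζ
  have heη0 : ∀ l, e l η0 = v l ζ := by
    intro l
    rw [hη0, map_sum, Finset.sum_eq_single l]
    · exact hev l
    · intro j _ hj
      rw [← hev j, ← mul_apply_eq_comp, ho l j hj.symm, zero_apply]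
    · intro hi
      exact absurd (Finset.mem_univ l) hi
  have hvv : ∀ l, star (v l) (v l ζ) = ζ := fun l => by
    rw [← mul_apply_eq_comp, (hv l).2.2, hgζ]
  have hv0 : ∀ l, v l ζ ≠ 0 := fun l h => hζ0 (by rw [← hvv l, h, map_zero])
  have hη00 : η0 ≠ 0 := fun h => hv0 k0 (by rw [← heη0, h, map_zero])
  have hzη0 : z η0 = η0 := by
    rw [hη0, map_sum]
    refine Finset.sum_congr rfl fun l _ => ?_
    rw [← hev l, ← mul_apply_eq_comp, (he l).2.2]
  obtain ⟨t, ht⟩ : ∃ t : ℂ, t = ((‖η0‖⁻¹ : ℝ) : ℂ) := ⟨_, rfl⟩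
  have hn0 : 0 < ‖η0‖ := norm_pos_iff.2 hη00
  have ht0 : t ≠ 0 := by
    rw [ht]
    exact Complex.ofReal_ne_zero.2 (inv_pos.2 hn0).ne'
  obtain ⟨η, hη⟩ : ∃ η, η = t • η0 := ⟨_, rfl⟩
  have hη1 : ‖η‖ = 1 := by
    rw [hη, ht, norm_smul, Complex.norm_real, Real.norm_of_nonneg (inv_pos.2 hn0).le,
      inv_mul_cancel₀ hn0.ne']
  have hzη : z η = η := by rw [hη, map_smul, hzη0]
  have heη : ∀ l, e l η = t • v l ζ := fun l => by rw [hη, map_smul, heη0]
  obtain ⟨ψ, hψ, hψa⟩ := exists_psi hA hz hzp hE η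
  obtain ⟨p, hpA, hpp, hzp', hψzp, hf⟩ := exists_support hA hz hzp
    (SO.isNormalExpectation_iff.2 hE) hψ
  have hzz : z * z = z := hzp.isIdempotentElem.eq
  have hp2 : p * p = p := hpp.isIdempotentElem.eq
  have hpη : p η = η := by
    have h1 : IsStarProjection (z - p) := sub_proj_of_le hzp hpp hzp'
    have h2 := hψa (z - p) (sub_mem hz hpA) (by rw [mul_sub, hzz, hzp'])
    rw [hψzp] at h2
    have h3 := proj_inner_self h1 η
    rw [← h2, Complex.zero_re] at h3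
    have h4 : (z - p) η = 0 := norm_eq_zero.1 (pow_eq_zero_iff two_ne_zero |>.1 h3.symm)
    rw [_root_.sub_apply, hzη, sub_eq_zero] at h4
    exact h4.symm
  have hψp : ψ p = 1 := by
    rw [hψa p hpA hzp', hpη, inner_self_eq_norm_sq_to_K, hη1]
    norm_num
  have hsepA : ∀ a ∈ A, p * a = a → a η = 0 → a = 0 := by
    intro a ha hpa h0
    have hap : a * p = a := by rw [← hA.2.1 p hpA a ha, hpa]
    refine hf a (hA.1 a ha) (by rw [hpa, hap]) ?_
    have h1 : z * (star a * a) = star a * a := by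
      rw [← mul_assoc, hA.2.1 z hz _ (star_mem ha), mul_assoc, ← hpa, ← mul_assoc z, hzp']
    rw [hψa _ (mul_mem (star_mem ha) ha) h1, mul_apply_eq_comp, h0, map_zero, inner_zero_right]
  obtain ⟨L, _, _, _, N, B, ω, ρ, R⟩ := exists_crep hA hpA hpp hψ hψp hf
  obtain ⟨D⟩ := exists_modData N ω R.norm_one R.cyc R.sep
  have heM : ∀ l, e l ∈ M := fun l => hA.1 _ (he l).1
  have hpe : ∀ l, p * e l = e l * p := fun l => hA.2.1 p hpA _ (he l).1
  have hhard : Hard N B ω c (1 / 2 ^ m) := by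
    refine core L N B ω D R.masa R.cen m (fun l => ρ (e l))
      (fun l => ⟨R.memA _ (he l).1, R.proj hA hpA (he l).1 (he l).2.1⟩) (fun l j hlj => ?_)
      (ρ (e k0)) (R.memA _ (he k0).1) (R.proj hA hpA (he k0).1 (he k0).2.1) ?_ ?_
    · rw [← R.mul_left _ (heM l) _ (heM j) (hpe l), ho l j hlj, R.zero]
    · intro h0
      have h1 := DFunLike.congr_fun (R.inj _ (heM k0) h0) η
      rw [hpe k0, mul_assoc, hp2, mul_apply_eq_comp, hpη, heη, zero_apply, smul_eq_zero] at h1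
      exact h1.elim ht0 (hv0 k0)
    · intro g1 hg1 _ hfg hg10 l
      obtain ⟨a, ha, hpa, rfl⟩ := R.surjA g1 hg1
      have haM : a ∈ M := hA.1 a ha
      have hpa' : p * a = a * p := hA.2.1 p hpA a ha
      have hap : a * p = a := by rw [← hpa', hpa]
      have hea : e k0 * a = a := by
        have h1 : ρ (e k0 * a - a) = 0 := by
          rw [R.sub _ (mul_mem (heM k0) haM) _ haM, R.mul_left _ (heM k0) _ haM (hpe k0), hfg,
            sub_self]
        have h2 := R.inj _ (sub_mem (mul_mem (heM k0) haM) haM) h1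
        rw [mul_sub, sub_mul, ← mul_assoc, hpe k0, mul_assoc (e k0), hpa, mul_assoc, hap,
          sub_eq_zero] at h2
        exact h2
      have ha0 : a η ≠ 0 := fun h => hg10 (by rw [hsepA a ha hpa h, R.zero])
      have hyM : v k0 * star (v l) ∈ M := mul_mem (hv k0).1 (star_mem (hv l).1)
      refine ⟨ρ (v k0 * star (v l)), R.mem _ hyM, fun h0 => ha0 ?_⟩
      rw [← R.mul_left _ haM _ hyM hpa', ← R.mul_right _ (mul_mem haM hyM) _ (heM l) (hpe l)] at h0
      have h1 := DFunLike.congr_fun (R.inj _ (mul_mem (mul_mem haM hyM) (heM l)) h0) η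
      have h2 : (p * (a * (v k0 * star (v l)) * e l) * p) η =
          p (a (v k0 (star (v l) (e l (p η))))) := rfl
      rw [h2, hpη, heη, map_smul, hvv, map_smul, ← heη, zero_apply, ← mul_apply_eq_comp a,
        hA.2.1 a ha _ (he k0).1, hea, ← mul_apply_eq_comp, hpa] at h1
      exact h1
  have hL2 := ((R.wpav hA hpA hψ hε hpave).l2 D R.masa R.cen).pow D R.masa R.cen hε k
  exact hhard.le D R.masa R.cen (pow_nonneg hε k) hL2

/-- the quadratic lower bound for every inclusion -/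
theorem quadratic_of_core {c : ℝ} (hc : 0 < c) (core : CoreStmt.{u} c) (hA : SO.IsMASA A M)
    {z : H →L[ℂ] H} (hz : z ∈ A) (hzp : IsStarProjection z)
    {E : (H →L[ℂ] H) →ₗ[ℂ] (H →L[ℂ] H)} (hE : IsNormalExpectation M A.toStarSubalgebra z E)
    (hinf : ∀ N, ¬ SumAbelian M A.toStarSubalgebra z N) {ε : ℝ} (hε : 0 < ε) :
    (⌈1 / ε ^ 2⌉₊ : ℕ∞) ≤ pavingNumber M A.toStarSubalgebra 1 ε := by
  refine le_pavingNumber fun r hr hpave => ?_
  have hr0 : (0 : ℝ) < r := by exact_mod_cast (show 0 < r by omega)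
  have key : ∀ k : ℕ, c ≤ 4 * (r * ε ^ 2) ^ k := by
    intro k
    have h1 : ∀ m : ℕ, c / ((r ^ k : ℕ) : ℝ) ≤ 4 * (ε ^ k) ^ 2 + 1 / 2 ^ m := by
      intro m
      have := bound_of_units core hA hz hzp hE hε.le
        (fun x hx hxs => hpave x hx hxs (by simp)) (units_of_not_sum hA hz hzp hinf (2 ^ m)) k
      linarith only [this]
    have ht : Tendsto (fun m : ℕ => 4 * (ε ^ k) ^ 2 + 1 / 2 ^ m) atTop
        (𝓝 (4 * (ε ^ k) ^ 2 + 0)) := by
      refine tendsto_const_nhds.add ?_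
      have h1 : ∀ m : ℕ, (1 : ℝ) / 2 ^ m = (1 / 2) ^ m := fun m => by rw [div_pow, one_pow]
      simp_rw [h1]
      exact tendsto_pow_atTop_nhds_zero_of_lt_one (by norm_num) (by norm_num)
    rw [add_zero] at ht
    have h2 := ge_of_tendsto' ht h1
    push_cast at h2
    rw [div_le_iff₀ (by positivity)] at h2
    calc c ≤ 4 * (ε ^ k) ^ 2 * (r : ℝ) ^ k := h2
      _ = 4 * (r * ε ^ 2) ^ k := by rw [mul_pow, ← pow_mul, ← pow_mul, mul_comm k 2]; ring
  have h3 : 1 ≤ r * ε ^ 2 := by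
    by_contra hlt
    push Not at hlt
    have ht : Tendsto (fun k : ℕ => 4 * (r * ε ^ 2) ^ k) atTop (𝓝 (4 * 0)) :=
      (tendsto_pow_atTop_nhds_zero_of_lt_one (by positivity) hlt).const_mul 4
    rw [mul_zero] at ht
    exact absurd (ge_of_tendsto' ht key) (not_le.2 hc)
  rw [Nat.cast_le, Nat.ceil_le, div_le_iff₀ (by positivity)]
  exact h3

end Vale.Agent.P078.TT
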