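import Vale.Agent.P078.H598.Rate23
import Vale.Agent.P132.Bd8.B6
import Vale.Agent.P078.Bdl.Fast

set_option linter.all false
attribute [local instance] Vale.Agent.P078.Fast.a01 Vale.Agent.P078.Fast.a02
  Vale.Agent.P078.Fast.a03 Vale.Agent.P078.Fast.a04 Vale.Agent.P078.Fast.a05
  Vale.Agent.P078.Fast.a06 Vale.Agent.P078.Fast.a07 Vale.Agent.P078.Fast.a08
  Vale.Agent.P078.Fast.a09 Vale.Agent.P078.Fast.a10 Vale.Agent.P078.Fast.a11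
  Vale.Agent.P078.Fast.a12 Vale.Agent.P078.Fast.a13 Vale.Agent.P078.Fast.a14
  Vale.Agent.P078.Fast.a15 Vale.Agent.P078.Fast.a16 Vale.Agent.P078.Fast.a17
  Vale.Agent.P078.Fast.a18 Vale.Agent.P078.Fast.a19 Vale.Agent.P078.Fast.a20
  Vale.Agent.P078.Fast.a21 Vale.Agent.P078.Fast.a22 Vale.Agent.P078.Fast.a23
  Vale.Agent.P078.Fast.a24 Vale.Agent.P078.Fast.a25 Vale.Agent.P078.Fast.a26
  Vale.Agent.P078.Fast.a27 Vale.Agent.P078.Fast.a28 Vale.Agent.P078.Fast.a29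
  Vale.Agent.P078.Fast.a30 Vale.Agent.P078.Fast.a31 Vale.Agent.P078.Fast.a32
  Vale.Agent.P078.Fast.a33 Vale.Agent.P078.Fast.a34 Vale.Agent.P078.Fast.a35
  Vale.Agent.P078.Fast.a36 Vale.Agent.P078.Fast.a37 Vale.Agent.P078.Fast.a38
  Vale.Agent.P078.Fast.a39 Vale.Agent.P078.Fast.a40 Vale.Agent.P078.Fast.a41
  Vale.Agent.P078.Fast.a42 Vale.Agent.P078.Fast.a43 Vale.Agent.P078.Fast.a44
  Vale.Agent.P078.Fast.a45 Vale.Agent.P078.Fast.a46 Vale.Agent.P078.Fast.a47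
  Vale.Agent.P078.Fast.a48 Vale.Agent.P078.Fast.a49 Vale.Agent.P078.Fast.a50
  Vale.Agent.P078.Fast.a51 Vale.Agent.P078.Fast.a52 Vale.Agent.P078.Fast.a53
  Vale.Agent.P078.Fast.a54


/-! Paving in the norm of a cyclic and separating vector, and its product rule. -/

namespace Vale.Agent.P078.TT

open Filter Topology Vale.Agent.P132
open scoped InnerProductSpace

universe u

variable {H : Type u} [NormedAddCommGroup H] [InnerProductSpace ℂ H] [CompleteSpace H]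
variable {M A : VonNeumannAlgebra H} {ξ : H}

/-- the vector state is tracial for the elements of `A` -/
def Cen (M A : VonNeumannAlgebra H) (ξ : H) : Prop :=
  ∀ a ∈ A, ∀ x ∈ M, ⟪ξ, a (x ξ)⟫_ℂ = ⟪ξ, x (a ξ)⟫_ℂ

theorem inC (D : ModData M ξ) (hA : SO.IsMASA A M) (hc : Cen M A ξ) {a : H →L[ℂ] H}
    (ha : a ∈ A) : D.InC a := by
  obtain ⟨b, hb, c, hc', hbs, hcs, rfl⟩ := g3_decomp A ha
  exact ModData.InC.add D (D.gi_centralizer (hA.1 b hb) hbs (hc b hb))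
    (ModData.InC.smul D (D.gi_centralizer (hA.1 c hc') hcs (hc c hc')) _)

theorem Rm_one (D : ModData M ξ) : D.Rm 1 = 1 := by
  ext v
  rw [D.Rm_apply, star_one, one_apply_eq_self, D.J_J, one_apply_eq_self]

theorem Rm_zero (D : ModData M ξ) : D.Rm 0 = 0 := by
  ext v
  rw [D.Rm_apply, star_zero, zero_apply, map_zero, zero_apply]

/-- the partition of the commutant given by right multiplications -/
noncomputable def rpart (D : ModData M ξ) (hA : SO.IsMASA A M) (Q : Part A.toStarSubalgebra) :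
    Part M.commutant.toStarSubalgebra where
  ι := Q.ι
  e i := D.Rm (Q.e i)
  mem i := D.Rm_mem (hA.1 _ (Q.mem i))
  proj i := ⟨by
    change D.Rm (Q.e i) * D.Rm (Q.e i) = D.Rm (Q.e i)
    rw [← D.Rm_mul, Q.mul_self], by
    rw [IsSelfAdjoint, D.star_Rm, Q.star_e]⟩
  orth i j h := by
    rw [← D.Rm_mul, Q.orth j i h.symm, Rm_zero]
  sum_eq := by
    rw [← D.Rm_sum, Q.sum_eq, Rm_one]

theorem apply_mul_xi (D : ModData M ξ) (hA : SO.IsMASA A M) (hc : Cen M A ξ) {x a : H →L[ℂ] H}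
    (hx : x ∈ M) (ha : a ∈ A) : x (a ξ) = D.Rm a (x ξ) :=
  ModData.InC.mul_xi D hx (inC D hA hc ha)

theorem norm_apply_mul_xi (D : ModData M ξ) (hA : SO.IsMASA A M) (hc : Cen M A ξ)
    {x a : H →L[ℂ] H} (hx : x ∈ M) (ha : a ∈ A) : ‖x (a ξ)‖ ≤ ‖a‖ * ‖x ξ‖ := by
  rw [apply_mul_xi D hA hc hx ha]
  exact (D.Rm a).le_of_opNorm_le (D.norm_Rm_le a) _

/-- the two-sided cut is a contraction -/
theorem norm_cut_le (D : ModData M ξ) (hA : SO.IsMASA A M) (Q : Part A.toStarSubalgebra) (v : H) :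
    ‖∑ i, Q.e i (D.Rm (Q.e i) v)‖ ≤ ‖v‖ := by
  rw [← sq_le_sq₀ (norm_nonneg _) (norm_nonneg _), Q.norm_sq_sum,
    ← (rpart D hA Q).sum_norm_sq v]
  refine Finset.sum_le_sum fun i _ => ?_
  exact pow_le_pow_left₀ (norm_nonneg _) (proj_norm_le (Q.proj i) _) 2

theorem E_xi (D : ModData M ξ) (hA : SO.IsMASA A M) (hc : Cen M A ξ)
    (Q : Part A.toStarSubalgebra) {x : H →L[ℂ] H} (hx : x ∈ M) :
    Q.E x ξ = ∑ i, Q.e i (D.Rm (Q.e i) (x ξ)) := by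
  rw [Q.E_apply_apply]
  exact Finset.sum_congr rfl fun i _ => by rw [apply_mul_xi D hA hc hx (Q.mem i)]

theorem norm_E_xi (D : ModData M ξ) (hA : SO.IsMASA A M) (hc : Cen M A ξ)
    (Q : Part A.toStarSubalgebra) {x : H →L[ℂ] H} (hx : x ∈ M) : ‖Q.E x ξ‖ ≤ ‖x ξ‖ := by
  rw [E_xi D hA hc Q hx]
  exact norm_cut_le D hA Q _

theorem E_of_mem (hA : SO.IsMASA A M) (Q : Part A.toStarSubalgebra) {a : H →L[ℂ] H}
    (ha : a ∈ A) : Q.E a = a := by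
  rw [Q.E_apply]
  have h : ∀ i, Q.e i * a * Q.e i = a * Q.e i := fun i => by
    rw [hA.2.1 _ (Q.mem i) a ha, mul_assoc, Q.mul_self]
  simp_rw [h]
  rw [← Finset.mul_sum, Q.sum_eq, mul_one]

theorem inf_E (hA : SO.IsMASA A M) (Q R : Part A.toStarSubalgebra) (x : H →L[ℂ] H) :
    (Q.inf hA.2.1 R).E x = R.E (Q.E x) := by
  rw [R.E_apply, Q.E_apply]
  change ∑ p : Q.ι × R.ι, Q.e p.1 * R.e p.2 * x * (Q.e p.1 * R.e p.2) = _
  rw [Fintype.sum_prod_type, Finset.sum_comm]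
  refine Finset.sum_congr rfl fun j _ => ?_
  rw [Finset.mul_sum, Finset.sum_mul]
  refine Finset.sum_congr rfl fun i _ => ?_
  have h : Q.e i * R.e j = R.e j * Q.e i := hA.2.1 _ (Q.mem i) _ (R.mem j)
  calc Q.e i * R.e j * x * (Q.e i * R.e j) = R.e j * Q.e i * x * (Q.e i * R.e j) := by rw [h]
    _ = _ := by simp only [mul_assoc]

/-- paving in the norm of the vector -/
def L2Pav (M A : VonNeumannAlgebra H) (ξ : H) (ε : ℝ) (r : ℕ) : Prop :=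
  ∀ x ∈ M, IsSelfAdjoint x → ∀ η : ℝ, 0 < η →
    ∃ Q : Part A.toStarSubalgebra, Fintype.card Q.ι = r ∧ ∃ a ∈ A, ∃ y ∈ M, IsSelfAdjoint y ∧
      ‖y‖ ≤ ε * ‖x‖ ∧ ‖(Q.E x - a - y) ξ‖ ≤ η

theorem L2Pav.one (M A : VonNeumannAlgebra H) (ξ : H) : L2Pav M A ξ 1 1 := by
  intro x hx hxs η hη
  refine ⟨Part.trivialPart _, Fintype.card_unit, 0, zero_mem A, x, hx, hxs, by rw [one_mul], ?_⟩
  have h : (Part.trivialPart A.toStarSubalgebra).E x = x := by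
    rw [Part.E_apply]
    change ∑ _i : Unit, (1 : H →L[ℂ] H) * x * 1 = x
    rw [Fintype.sum_unique, one_mul, mul_one]
  rw [h, sub_zero, sub_self, zero_apply, norm_zero]
  exact hη.le

theorem L2Pav.mul (D : ModData M ξ) (hA : SO.IsMASA A M) (hc : Cen M A ξ) {ε ε' : ℝ} {r r' : ℕ}
    (hε' : 0 ≤ ε') (h : L2Pav M A ξ ε r) (h' : L2Pav M A ξ ε' r') :
    L2Pav M A ξ (ε * ε') (r * r') := by
  intro x hx hxs η hη
  obtain ⟨Q, hQ, a, ha, y, hy, hys, hyn, h1⟩ := h x hx hxs (η / 2) (half_pos hη)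
  obtain ⟨R, hR, a', ha', y', hy', hys', hyn', h2⟩ := h' y hy hys (η / 2) (half_pos hη)
  refine ⟨Q.inf hA.2.1 R, ?_, a + a', add_mem ha ha', y', hy', hys', ?_, ?_⟩
  · change Fintype.card (Q.ι × R.ι) = _
    rw [Fintype.card_prod, hQ, hR]
  · calc ‖y'‖ ≤ ε' * ‖y‖ := hyn'
      _ ≤ ε' * (ε * ‖x‖) := mul_le_mul_of_nonneg_left hyn hε'
      _ = ε * ε' * ‖x‖ := by ring
  · have hQx : Q.E x ∈ M := Q.E_mem (SO.IsMASA.toStar hA).1 hx
    have hd : Q.E x - a - y ∈ M := sub_mem (sub_mem hQx (hA.1 a ha)) hy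
    have e1 : (Q.inf hA.2.1 R).E x - (a + a') - y' = R.E (Q.E x - a - y) + (R.E y - a' - y') := by
      rw [inf_E hA, map_sub, map_sub, E_of_mem hA R ha]
      abel
    rw [e1, _root_.add_apply]
    calc _ ≤ ‖R.E (Q.E x - a - y) ξ‖ + ‖(R.E y - a' - y') ξ‖ := norm_add_le _ _
      _ ≤ η / 2 + η / 2 := add_le_add ((norm_E_xi D hA hc R hd).trans h1) h2
      _ = η := add_halves η

theorem L2Pav.pow (D : ModData M ξ) (hA : SO.IsMASA A M) (hc : Cen M A ξ) {ε : ℝ} {r : ℕ}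
    (hε : 0 ≤ ε) (h : L2Pav M A ξ ε r) (k : ℕ) : L2Pav M A ξ (ε ^ k) (r ^ k) := by
  induction k with
  | zero => rw [pow_zero, pow_zero]; exact L2Pav.one M A ξ
  | succ k ih => rw [pow_succ, pow_succ]; exact ih.mul D hA hc hε h

/-- a weak form of paving which is inherited from so-paving -/
def WPav (M A : VonNeumannAlgebra H) (ξ : H) (ε : ℝ) (r : ℕ) : Prop :=
  ∀ x ∈ M, IsSelfAdjoint x → ∀ κ : ℝ, 0 < κ →
    ∃ Q : Part A.toStarSubalgebra, Fintype.card Q.ι = r ∧ ∃ a ∈ A, ‖a‖ ≤ ‖x‖ ∧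
      ∃ u ∈ M, ‖u‖ ≤ 1 ∧ ‖u ξ‖ ≤ κ ∧ ∃ y ∈ M, IsSelfAdjoint y ∧ ‖y‖ ≤ ε * ‖x‖ ∧
        ‖(Q.E x - a - y) ξ - u ((Q.E x - a) ξ)‖ ≤ κ

theorem WPav.l2 (D : ModData M ξ) (hA : SO.IsMASA A M) (hc : Cen M A ξ) {ε : ℝ} {r : ℕ}
    (h : WPav M A ξ ε r) : L2Pav M A ξ ε r := by
  intro x hx hxs η hη
  obtain ⟨_, ⟨x', hx', rfl⟩, hd⟩ := Metric.mem_closure_iff.1 (D.cyc' (x ξ)) (η / 2) (half_pos hη)
  rw [dist_eq_norm] at hd
  have hpos : 0 < 1 + ‖x'‖ + ‖x‖ := by positivity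
  obtain ⟨κ, hκ⟩ : ∃ κ, κ = η / 2 / (1 + ‖x'‖ + ‖x‖) := ⟨_, rfl⟩
  have hκ0 : 0 < κ := by rw [hκ]; positivity
  obtain ⟨Q, hQ, a, ha, han, u, hu, hun, huξ, y, hy, hys, hyn, h1⟩ := h x hx hxs κ hκ0
  refine ⟨Q, hQ, a, ha, y, hy, hys, hyn, ?_⟩
  have hQe : ∀ i, Q.e i ∈ M := fun i => hA.1 _ (Q.mem i)
  have e1 : Q.E x ξ = ∑ i, Q.e i (D.Rm (Q.e i) (x ξ - x' ξ)) + (rpart D hA Q).E x' ξ := by
    rw [E_xi D hA hc Q hx, Part.E_apply_apply]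
    change _ = _ + ∑ i, D.Rm (Q.e i) (x' (D.Rm (Q.e i) ξ))
    rw [← Finset.sum_add_distrib]
    refine Finset.sum_congr rfl fun i _ => ?_
    rw [ModData.InC.Rm_xi D (inC D hA hc (Q.mem i)), ← ModData.comm_apply (hQe i) hx',
      ← D.comm_Rm (hQe i) (hQe i), ← map_add, ← map_add, sub_add_cancel]
  have hE' : (rpart D hA Q).E x' ∈ M.commutant := (rpart D hA Q).E_mem le_rfl hx'
  have h2 : ‖u ((rpart D hA Q).E x' ξ)‖ ≤ ‖x'‖ * κ := by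
    rw [ModData.comm_apply hu hE']
    exact (((rpart D hA Q).E x').le_of_opNorm_le ((rpart D hA Q).norm_E_le x') _).trans
      (mul_le_mul_of_nonneg_left huξ (norm_nonneg _))
  have h3 : ‖u (∑ i, Q.e i (D.Rm (Q.e i) (x ξ - x' ξ)))‖ ≤ η / 2 := by
    refine (u.le_of_opNorm_le hun _).trans ?_
    rw [one_mul]
    exact (norm_cut_le D hA Q _).trans hd.le
  have h4 : ‖u (a ξ)‖ ≤ ‖x‖ * κ :=
    (norm_apply_mul_xi D hA hc hu ha).trans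
      (mul_le_mul han huξ (norm_nonneg _) (norm_nonneg _))
  have h5 : ‖u ((Q.E x - a) ξ)‖ ≤ η / 2 + ‖x'‖ * κ + ‖x‖ * κ := by
    rw [_root_.sub_apply, e1, map_sub, map_add]
    exact (norm_sub_le _ _).trans (add_le_add ((norm_add_le _ _).trans (add_le_add h3 h2)) h4)
  have h6 : ‖(Q.E x - a - y) ξ‖ ≤ ‖(Q.E x - a - y) ξ - u ((Q.E x - a) ξ)‖ +
      ‖u ((Q.E x - a) ξ)‖ := by
    conv_lhs => rw [← sub_add_cancel ((Q.E x - a - y) ξ) (u ((Q.E x - a) ξ))]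
    exact norm_add_le _ _
  have h7 : κ * (1 + ‖x'‖ + ‖x‖) = η / 2 := by rw [hκ, div_mul_cancel₀ _ hpos.ne']
  nlinarith only [h1, h5, h6, h7]

/-- an element which is hard to pave -/
def Hard (M A : VonNeumannAlgebra H) (ξ : H) (c θ : ℝ) : Prop :=
  ∃ x ∈ M, IsSelfAdjoint x ∧ ‖x‖ ≤ 2 ∧ ∃ b ∈ A, b ξ ≠ 0 ∧
    ∀ Q : Part A.toStarSubalgebra, ∀ a ∈ A,
      (c / (Fintype.card Q.ι : ℝ) - θ) * ‖b ξ‖ ^ 2 ≤ ‖(Q.E x - a) (b ξ)‖ ^ 2

theorem Hard.le (D : ModData M ξ) (hA : SO.IsMASA A M) (hc : Cen M A ξ) {c θ ε : ℝ} {r : ℕ}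
    (hε : 0 ≤ ε) (h : Hard M A ξ c θ) (hp : L2Pav M A ξ ε r) :
    c / r - θ ≤ 4 * ε ^ 2 := by
  obtain ⟨x, hx, hxs, hxn, b, hb, hb0, h⟩ := h
  have hβ : 0 < ‖b ξ‖ := norm_pos_iff.2 hb0
  have key : ∀ t : ℝ, 0 < t → c / r - θ ≤ (2 * ε + t) ^ 2 := by
    intro t ht
    have hb1 : 0 < ‖b‖ + 1 := by positivity
    obtain ⟨Q, hQ, a, ha, y, hy, -, hyn, h1⟩ := hp x hx hxs (t * ‖b ξ‖ / (‖b‖ + 1))
      (by positivity)
    have h2 := h Q a ha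
    rw [hQ] at h2
    have hd : Q.E x - a - y ∈ M :=
      sub_mem (sub_mem (Q.E_mem (SO.IsMASA.toStar hA).1 hx) (hA.1 a ha)) hy
    have h3 : ‖(Q.E x - a - y) (b ξ)‖ ≤ t * ‖b ξ‖ := by
      refine (norm_apply_mul_xi D hA hc hd hb).trans ?_
      calc ‖b‖ * ‖(Q.E x - a - y) ξ‖ ≤ (‖b‖ + 1) * (t * ‖b ξ‖ / (‖b‖ + 1)) :=
            mul_le_mul (by linarith) h1 (norm_nonneg _) hb1.le
        _ = t * ‖b ξ‖ := by field_simp
    have h4 : ‖y (b ξ)‖ ≤ 2 * ε * ‖b ξ‖ := by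
      refine y.le_of_opNorm_le (hyn.trans ?_) _
      rw [mul_comm 2 ε]
      exact mul_le_mul_of_nonneg_left hxn hε
    have h5 : ‖(Q.E x - a) (b ξ)‖ ≤ (2 * ε + t) * ‖b ξ‖ := by
      have e1 : (Q.E x - a) (b ξ) = (Q.E x - a - y) (b ξ) + y (b ξ) := by
        rw [← _root_.add_apply, sub_add_cancel]
      rw [e1]
      refine (norm_add_le _ _).trans ?_
      linarith only [h3, h4]
    have h6 : ‖(Q.E x - a) (b ξ)‖ ^ 2 ≤ (2 * ε + t) ^ 2 * ‖b ξ‖ ^ 2 := by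
      rw [← mul_pow]
      exact pow_le_pow_left₀ (norm_nonneg _) h5 2
    exact le_of_mul_le_mul_right (h2.trans h6) (by positivity)
  have hl : Tendsto (fun t : ℝ => (2 * ε + t) ^ 2) (𝓝[>] 0) (𝓝 ((2 * ε + 0) ^ 2)) :=
    ((continuous_const.add continuous_id).pow 2).continuousAt.tendsto.mono_left nhdsWithin_le_nhds
  have h1 : c / r - θ ≤ (2 * ε + 0) ^ 2 := by
    refine ge_of_tendsto hl ?_
    filter_upwards [self_mem_nhdsWithin] with t ht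
    exact key t ht
  nlinarith only [h1]

end Vale.Agent.P078.TT
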