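import Vale.Agent.N078T.L2
import Vale.Agent.P078.Bdl.Fast

set_option linter.all false
attribute [local instance] Vale.Agent.P078.Fast.a01 Vale.Agent.P078.Fast.a02
  Vale.Agent.P078.Fast.a03 Vale.Agent.P078.Fast.a04 Vale.Agent.P078.Fast.a05
  Vale.Agent.P078.Fast.a06 Vale.Agent.P078.Fast.a07 Vale.Agent.P078.Fast.a08
  Vale.Agent.P078.Fast.a09 Vale.Agent.P078.Fast.a10 Vale.Agent.P078.Fast.a11
  Vale.Agent.P078.Fast.a12 Vale.Agent.P078.Fast.a13 Vale.Agent.P078.Fast.a14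
  Vale.Agent.P078.Fast.a15 Vale.Agent.P078.Fast.a16 Vale.Agent.P078.Fast.a17
  Vale.Agent.P078.Fast.a18 Vale.Agent.P078.Fast.a19 Vale.Agent.P078.Fast.a20
  Vale.Agent.P078.Fast.a21 Vale.Agent.P078.Fast.a22 Vale.Agent.P078.Fast.a23
  Vale.Agent.P078.Fast.a24 Vale.Agent.P078.Fast.a25 Vale.Agent.P078.Fast.a26
  Vale.Agent.P078.Fast.a27 Vale.Agent.P078.Fast.a28 Vale.Agent.P078.Fast.a29
  Vale.Agent.P078.Fast.a30 Vale.Agent.P078.Fast.a31 Vale.Agent.P078.Fast.a32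
  Vale.Agent.P078.Fast.a33 Vale.Agent.P078.Fast.a34 Vale.Agent.P078.Fast.a35
  Vale.Agent.P078.Fast.a36 Vale.Agent.P078.Fast.a37 Vale.Agent.P078.Fast.a38
  Vale.Agent.P078.Fast.a39 Vale.Agent.P078.Fast.a40 Vale.Agent.P078.Fast.a41
  Vale.Agent.P078.Fast.a42 Vale.Agent.P078.Fast.a43 Vale.Agent.P078.Fast.a44
  Vale.Agent.P078.Fast.a45 Vale.Agent.P078.Fast.a46 Vale.Agent.P078.Fast.a47
  Vale.Agent.P078.Fast.a48 Vale.Agent.P078.Fast.a49 Vale.Agent.P078.Fast.a50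
  Vale.Agent.P078.Fast.a51 Vale.Agent.P078.Fast.a52 Vale.Agent.P078.Fast.a53
  Vale.Agent.P078.Fast.a54


/-! The standard representation of a corner, and the transfer of so-paving. -/

namespace Vale.Agent.P078.TT

open Filter Topology Vale.Agent.P132 Vale.Agent.P078.WG
open scoped InnerProductSpace

universe u

variable {H : Type u} [NormedAddCommGroup H] [InnerProductSpace ℂ H] [CompleteSpace H]
variable {M A : VonNeumannAlgebra H} {p : H →L[ℂ] H} {ψ : (H →L[ℂ] H) →ₗ[ℂ] ℂ}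

/-- a representation of the corner `p M p` with a cyclic and separating vector -/
structure CRep (M A : VonNeumannAlgebra H) (p : H →L[ℂ] H) (ψ : (H →L[ℂ] H) →ₗ[ℂ] ℂ)
    {L : Type u} [NormedAddCommGroup L] [InnerProductSpace ℂ L] [CompleteSpace L]
    (N B : VonNeumannAlgebra L) (ω : L) (ρ : (H →L[ℂ] H) → (L →L[ℂ] L)) : Prop where
  masa : SO.IsMASA B N
  cen : Cen N B ω
  norm_one : ‖ω‖ = 1
  cyc : Dense {ζ : L | ∃ a ∈ N, a ω = ζ}
  sep : ∀ a ∈ N, a ω = 0 → a = 0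
  mem : ∀ x ∈ M, ρ x ∈ N
  memA : ∀ a ∈ A, ρ a ∈ B
  surj : ∀ T ∈ N, IsSelfAdjoint T →
    ∃ x ∈ M, IsSelfAdjoint x ∧ p * x = x ∧ x * p = x ∧ ρ x = T ∧ ‖x‖ ≤ ‖T‖
  surjA : ∀ T ∈ B, ∃ a ∈ A, p * a = a ∧ ρ a = T
  add : ∀ x ∈ M, ∀ y ∈ M, ρ (x + y) = ρ x + ρ y
  sub : ∀ x ∈ M, ∀ y ∈ M, ρ (x - y) = ρ x - ρ y
  adj : ∀ x ∈ M, ρ (star x) = star (ρ x)
  one : ρ 1 = 1
  mul_left : ∀ x ∈ M, ∀ y ∈ M, p * x = x * p → ρ (x * y) = ρ x * ρ y
  mul_right : ∀ x ∈ M, ∀ y ∈ M, p * y = y * p → ρ (x * y) = ρ x * ρ y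
  inj : ∀ x ∈ M, ρ x = 0 → p * x * p = 0
  norm_le : ∀ x ∈ M, ‖ρ x‖ ≤ ‖x‖
  small : ∀ d ∈ M, ‖ρ d ω‖ ^ 2 ≤ (ψ (star d * d)).re

section dn

variable {K : Type u} [NormedAddCommGroup K] [InnerProductSpace ℂ K] [CompleteSpace K]
variable {i : K →L[ℂ] H}

theorem dn_add (x y : H →L[ℂ] H) : dn i (x + y) = dn i x + dn i y := by
  ext v
  change ContinuousLinearMap.adjoint i (x (i v) + y (i v)) = _
  rw [map_add]
  rfl

theorem dn_sub (x y : H →L[ℂ] H) : dn i (x - y) = dn i x - dn i y := by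
  ext v
  change ContinuousLinearMap.adjoint i (x (i v) - y (i v)) = _
  rw [map_sub]
  rfl

theorem dn_one (hi : Iso i p) : dn i (1 : H →L[ℂ] H) = 1 := by
  ext v
  exact hi.iso v

theorem dn_mul_left (hi : Iso i p) {x : H →L[ℂ] H} (y : H →L[ℂ] H) (h : p * x = x * p) :
    dn i (x * y) = dn i x * dn i y := by
  have hpp : p * p = p := hi.proj.isIdempotentElem.eq
  apply hi.up_injective
  rw [hi.up_mul, hi.up_dn, hi.up_dn, hi.up_dn]
  have h1 : p * x * p * p = p * x := by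
    rw [mul_assoc (p * x), hpp, h, mul_assoc, hpp]
  calc p * (x * y) * p = p * x * (y * p) := by simp only [mul_assoc]
    _ = p * x * p * p * (y * p) := by rw [h1]
    _ = _ := by simp only [mul_assoc]

theorem dn_mul_right (hi : Iso i p) (x : H →L[ℂ] H) {y : H →L[ℂ] H} (h : p * y = y * p) :
    dn i (x * y) = dn i x * dn i y := by
  have hpp : p * p = p := hi.proj.isIdempotentElem.eq
  apply hi.up_injective
  rw [hi.up_mul, hi.up_dn, hi.up_dn, hi.up_dn]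
  have h1 : p * (p * y * p) = y * p := by
    rw [h, mul_assoc y, hpp, ← mul_assoc, h, mul_assoc, hpp]
  calc p * (x * y) * p = p * x * (y * p) := by simp only [mul_assoc]
    _ = p * x * (p * (p * y * p)) := by rw [h1]
    _ = _ := by simp only [mul_assoc]

end dn

theorem exists_crep (hA : SO.IsMASA A M) (hp : p ∈ A) (hpp : IsStarProjection p)
    (hψ : CentralNormal M A.toStarSubalgebra ψ) (h1 : ψ p = 1)
    (hf : ∀ x ∈ M, p * x * p = x → ψ (star x * x) = 0 → x = 0) :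
    ∃ (L : Type u) (_ : NormedAddCommGroup L) (_ : InnerProductSpace ℂ L) (_ : CompleteSpace L)
      (N B : VonNeumannAlgebra L) (ω : L) (ρ : (H →L[ℂ] H) → (L →L[ℂ] L)),
      CRep M A p ψ N B ω ρ := by
  obtain ⟨K, _, _, _, i, hi⟩ := exists_iso hpp
  have hpM : p ∈ M := hA.1 p hp
  have hp2 : p * p = p := hpp.isIdempotentElem.eq
  have hA1 := isMASA_cAlg hA hi hp
  have hφc := corner_central hA hψ hi hp
  have hφpos : PosOn (cAlg M i) (corner ψ i) := hφc.nonneg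
  have hφ1 : corner ψ i 1 = 1 := by rw [corner_apply, hi.up_one, h1]
  have hup : ∀ y : K →L[ℂ] K, p * up i y * p = up i y := fun y => by
    rw [← hi.up_dn, hi.dn_up]
  have hφf : ∀ y ∈ cAlg M i, corner ψ i (star y * y) = 0 → y = 0 := by
    intro y hy h
    rw [corner_apply, hi.up_mul, Iso.up_star] at h
    have h2 := hf _ ((mem_cAlg hi hpM).1 hy) (hup y) h
    rw [← hi.dn_up y, h2]
    ext v
    change ContinuousLinearMap.adjoint i 0 = 0
    exact map_zero _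
  obtain ⟨L, _, _, _, Λ, π, hG⟩ := exists_gns hφpos
  obtain ⟨N, hN⟩ := hG.exists_image hφpos hφc.wcont hφf (N := cAlg M i) fun _ h => h
  obtain ⟨B, hB⟩ := hG.exists_image hφpos hφc.wcont hφf (N := cAlg A i) hA1.1
  have hMA' := hG.isMASA hφpos hφf hA1 hN hB
  have hcs := hG.isCState hA1 hφc hφ1 hφf hN hB
  have hd : ∀ x ∈ M, dn i x ∈ cAlg M i := fun x hx => dn_mem hi hpM hx
  have hone : (1 : K →L[ℂ] K) ∈ cAlg M i := one_mem _
  refine ⟨L, inferInstance, inferInstance, inferInstance, N, B, Λ 1, fun x => π (dn i x),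
    hMA', ?_, ?_, ?_, ?_, fun x hx => (hN _).2 ⟨_, hd x hx, rfl⟩,
    fun a ha => (hB _).2 ⟨_, dn_mem hi hp ha, rfl⟩, ?_, ?_, ?_, ?_, ?_, ?_, ?_, ?_, ?_, ?_, ?_⟩
  · intro a ha x hx
    have h2 := hcs.central a ha x hx
    rw [vtr_cyc, vtr_cyc] at h2
    exact h2
  · have h2 : ‖Λ 1‖ ^ 2 = 1 := by
      rw [hG.norm_sq hone, star_one, one_mul, hφ1, Complex.one_re]
    have h3 := norm_nonneg (Λ 1)
    nlinarith only [h2, h3]
  · intro v
    rw [Metric.mem_closure_iff]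
    intro δ hδ
    obtain ⟨x, hx, h2⟩ := hG.dense v δ hδ
    refine ⟨Λ x, ⟨π x, (hN _).2 ⟨x, hx, rfl⟩, ?_⟩, by rwa [dist_eq_norm]⟩
    rw [hG.act x hx 1 hone, mul_one]
  · intro a ha h0
    refine hcs.faithful a ha fun n => ?_
    by_cases hn : n = 0
    · simp only [WG.cyc, hn, ↓reduceIte, h0]
    · simp only [WG.cyc, hn, ↓reduceIte, map_zero]
  · intro T hT hTs
    obtain ⟨y, hy, rfl⟩ := (hN T).1 hT
    have hys : star y = y := by
      refine hG.inj hφpos hφf (star_mem hy) hy ?_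
      rw [hG.map_star hy]
      exact hTs.star_eq
    refine ⟨up i y, (mem_cAlg hi hpM).1 hy, ?_, ?_, ?_, ?_, ?_⟩
    · rw [IsSelfAdjoint, ← Iso.up_star, hys]
    · rw [← hup y, ← mul_assoc, ← mul_assoc, hp2]
    · rw [← hup y, mul_assoc, hp2]
    · rw [hi.dn_up]
    · rw [hG.norm_eq hφpos hφf hy]
      exact hi.norm_up_le y
  · intro T hT
    obtain ⟨y, hy, rfl⟩ := (hB T).1 hT
    refine ⟨up i y, (mem_cAlg hi hp).1 hy, ?_, ?_⟩
    · rw [← hup y, ← mul_assoc, ← mul_assoc, hp2]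
    · rw [hi.dn_up]
  · intro x hx y hy
    rw [dn_add, hG.map_add (hd x hx) (hd y hy)]
  · intro x hx y hy
    rw [dn_sub, hG.map_sub (hd x hx) (hd y hy)]
  · intro x hx
    rw [Iso.dn_star, hG.map_star (hd x hx)]
  · rw [dn_one hi, hG.map_one]
  · intro x hx y hy h
    rw [dn_mul_left hi y h, hG.map_mul (hd x hx) (hd y hy)]
  · intro x hx y hy h
    rw [dn_mul_right hi x h, hG.map_mul (hd x hx) (hd y hy)]
  · intro x hx h
    have h2 : dn i x = 0 := hG.inj hφpos hφf (hd x hx) (zero_mem _) (by rw [hG.map_zero]; exact h)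
    rw [← hi.up_dn, h2]
    ext v
    change i 0 = 0
    exact map_zero _
  · intro x hx
    exact (hG.norm_le hφpos (hd x hx)).trans (hi.norm_dn_le x)
  · intro d hdM
    have hpos : PosOn M ψ := hψ.nonneg
    rw [hG.act _ (hd d hdM) 1 hone, mul_one, hG.norm_sq (hd d hdM), corner_apply, hi.up_mul,
      Iso.up_star, hi.up_dn, mul_assoc p d p]
    have h2 := left_bound hpos hpM (mul_mem hdM hpM)
    have h3 : star (d * p) * (d * p) = p * (star d * d) * p := by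
      rw [star_mul, hpp.isSelfAdjoint.star_eq]; simp only [mul_assoc]
    have h4 := hψ.compress_le hA (mul_mem (star_mem hdM) hdM) (star_mul_self_nonneg d) hp hpp
    have h5 : 0 ≤ (ψ (star (d * p) * (d * p))).re :=
      (hpos _ (mul_mem (star_mem (mul_mem hdM hpM)) (mul_mem hdM hpM))
        (star_mul_self_nonneg _)).1
    have h6 : ‖p‖ ^ 2 ≤ 1 := pow_le_one₀ (norm_nonneg _) (proj_opNorm_le hpp)
    rw [← h3] at h4
    nlinarith only [h2, h4, h5, h6]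

section rep

variable {L : Type u} [NormedAddCommGroup L] [InnerProductSpace ℂ L] [CompleteSpace L]
variable {N B : VonNeumannAlgebra L} {ω : L} {ρ : (H →L[ℂ] H) → (L →L[ℂ] L)}

theorem CRep.zero (R : CRep M A p ψ N B ω ρ) : ρ 0 = 0 := by
  have h := R.sub 0 (zero_mem M) 0 (zero_mem M)
  rwa [sub_self, sub_self] at h

theorem CRep.sum (R : CRep M A p ψ N B ω ρ) {ι : Type*} (s : Finset ι) {f : ι → (H →L[ℂ] H)}
    (hf : ∀ i, f i ∈ M) : ρ (∑ i ∈ s, f i) = ∑ i ∈ s, ρ (f i) := by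
  classical
  induction s using Finset.induction_on with
  | empty => rw [Finset.sum_empty, Finset.sum_empty, R.zero]
  | insert j s hj ih =>
    rw [Finset.sum_insert hj, Finset.sum_insert hj, R.add _ (hf j) _ (sum_mem fun i _ => hf i), ih]

theorem CRep.proj (R : CRep M A p ψ N B ω ρ) (hA : SO.IsMASA A M) (hp : p ∈ A)
    {e : H →L[ℂ] H} (he : e ∈ A) (hep : IsStarProjection e) : IsStarProjection (ρ e) := by
  have heM := hA.1 e he
  refine ⟨?_, ?_⟩
  · change ρ e * ρ e = ρ e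
    rw [← R.mul_left e heM e heM (hA.2.1 p hp e he), hep.isIdempotentElem.eq]
  · rw [IsSelfAdjoint, ← R.adj e heM, hep.isSelfAdjoint.star_eq]

/-- so-paving passes to the standard form of the corner -/
theorem CRep.wpav (R : CRep M A p ψ N B ω ρ) (hA : SO.IsMASA A M) (hp : p ∈ A)
    (hψ : CentralNormal M A.toStarSubalgebra ψ) {ε : ℝ} (hε : 0 ≤ ε) {r : ℕ}
    (hpave : ∀ x ∈ M, IsSelfAdjoint x → SOPavable M A.toStarSubalgebra 1 x ε r) :
    WPav N B ω ε r := by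
  intro T hT hTs κ hκ
  have hpos : PosOn M ψ := hψ.nonneg
  obtain ⟨x, hx, hxs, hpx, hxp, rfl, hxn⟩ := R.surj T hT hTs
  have hden : 0 < 1 + 4 * ‖x‖ ^ 2 := by positivity
  obtain ⟨d, ⟨q, hqM, hq, hd, P, a, hP, hPo, hPs, haA, has, han, hqS⟩, hdκ⟩ :=
    Vale.Agent.P078.L.small_of_strong hψ.wcont (D := {d | ∃ q ∈ M, IsStarProjection q ∧ d = 1 - q ∧
      ∃ (P : Fin r → (H →L[ℂ] H)) (a : H →L[ℂ] H), (∀ i, P i ∈ A ∧ IsStarProjection (P i)) ∧
        (∀ i j, i ≠ j → P i * P j = 0) ∧ ∑ i, P i = 1 ∧ a ∈ A ∧ IsSelfAdjoint a ∧ ‖a‖ ≤ ‖x‖ ∧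
        ‖q * (∑ i, P i * x * P i - a) * q‖ ≤ ε * ‖x‖}) (C := 1) (by
          rintro d ⟨q, hqM, hq, rfl, -⟩
          exact ⟨sub_mem (one_mem M) hqM, proj_opNorm_le hq.one_sub⟩) (by
          intro G δ hδ
          obtain ⟨P, a, q, hP, hPo, hPs, haA, -, has, han, hqM, -, hqp, hqF, hqS⟩ :=
            hpave x hx hxs G (fun ζ _ => rfl) δ hδ
          refine ⟨1 - q, ⟨q, hqM, hqp, rfl, P, a, hP, hPo, hPs, haA, has, han, hqS⟩,
            fun ζ hζ => ?_⟩
          have := hqF ζ hζ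
          rwa [_root_.sub_apply]) (κ := κ ^ 2 / (1 + 4 * ‖x‖ ^ 2)) (by positivity)
  have hPM : ∀ i, P i ∈ M := fun i => hA.1 _ (hP i).1
  have hpP : ∀ i, p * P i = P i * p := fun i => hA.2.1 p hp _ (hP i).1
  have haM : a ∈ M := hA.1 a haA
  have hdM : d ∈ M := by rw [hd]; exact sub_mem (one_mem M) hqM
  let Q0 : Part A.toStarSubalgebra :=
    { ι := Fin r
      e := P
      mem := fun i => (hP i).1
      proj := fun i => (hP i).2
      orth := hPo
      sum_eq := hPs }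
  let Q : Part B.toStarSubalgebra :=
    { ι := Fin r
      e := fun i => ρ (P i)
      mem := fun i => R.memA _ (hP i).1
      proj := fun i => R.proj hA hp (hP i).1 (hP i).2
      orth := fun i j hij => by
        rw [← R.mul_left _ (hPM i) _ (hPM j) (hpP i), hPo i j hij, R.zero]
      sum_eq := by rw [← R.sum _ hPM, hPs, R.one] }
  obtain ⟨S, hS⟩ : ∃ S, S = ∑ i, P i * x * P i := ⟨_, rfl⟩
  have hSM : S ∈ M := by
    rw [hS]; exact sum_mem fun i _ => mul_mem (mul_mem (hPM i) hx) (hPM i)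
  have hSn : ‖S‖ ≤ ‖x‖ := by rw [hS]; exact Q0.norm_E_le x
  have hSs : IsSelfAdjoint S := by rw [hS]; exact Q0.E_isSelfAdjoint hxs
  have hQE : Q.E (ρ x) = ρ S := by
    rw [hS, R.sum _ fun i => mul_mem (mul_mem (hPM i) hx) (hPM i)]
    change ∑ i, ρ (P i) * ρ x * ρ (P i) = _
    refine Finset.sum_congr rfl fun i _ => ?_
    rw [R.mul_right _ (mul_mem (hPM i) hx) _ (hPM i) (hpP i), R.mul_left _ (hPM i) _ hx (hpP i)]
  have hpS : p * S = S * p := by
    rw [hS, Finset.mul_sum, Finset.sum_mul]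
    refine Finset.sum_congr rfl fun i _ => ?_
    calc p * (P i * x * P i) = P i * (p * x) * P i := by
          rw [← mul_assoc, ← mul_assoc, hpP i]; simp only [mul_assoc]
      _ = P i * (x * p) * P i := by rw [hpx, hxp]
      _ = P i * x * P i * p := by
          rw [mul_assoc (P i * x), ← hpP i]; simp only [mul_assoc]
  obtain ⟨w, hw⟩ : ∃ w, w = S - a := ⟨_, rfl⟩
  have hwM : w ∈ M := by rw [hw]; exact sub_mem hSM haM
  have hws : IsSelfAdjoint w := by rw [hw]; exact hSs.sub has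
  have hwn : ‖w‖ ≤ 2 * ‖x‖ := by
    rw [hw]
    exact (norm_sub_le _ _).trans (by linarith only [hSn, han])
  have hpw : p * w = w * p := by rw [hw, mul_sub, sub_mul, hpS, hA.2.1 p hp a haA]
  rw [← hS, ← hw] at hqS
  have hyM : q * w * q ∈ M := mul_mem (mul_mem hqM hwM) hqM
  have hψd : 0 ≤ (ψ (star d * d)).re :=
    (hpos _ (mul_mem (star_mem hdM) hdM) (star_mul_self_nonneg d)).1
  have hκ1 : (ψ (star d * d)).re * (1 + 4 * ‖x‖ ^ 2) ≤ κ ^ 2 := by
    have h1 := mul_le_mul_of_nonneg_right hdκ.le hden.le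
    rwa [div_mul_cancel₀ _ hden.ne'] at h1
  refine ⟨Q, Fintype.card_fin r, ρ a, R.memA a haA, ((R.norm_le a haM).trans han).trans hxn,
    ρ d, R.mem d hdM, ?_, ?_, ρ (q * w * q), R.mem _ hyM, ?_, ?_, ?_⟩
  · refine (R.norm_le d hdM).trans ?_
    rw [hd]
    exact proj_opNorm_le hq.one_sub
  · rw [← sq_le_sq₀ (norm_nonneg _) hκ.le]
    have h1 := R.small d hdM
    nlinarith only [h1, hκ1, hψd, sq_nonneg ‖x‖]
  · rw [IsSelfAdjoint, ← R.adj _ hyM, star_mul, star_mul, hq.isSelfAdjoint.star_eq, hws.star_eq,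
      mul_assoc]
  · exact ((R.norm_le _ hyM).trans hqS).trans (mul_le_mul_of_nonneg_left hxn hε)
  · have hqw : q * w ∈ M := mul_mem hqM hwM
    have e1 : (Q.E (ρ x) - ρ a - ρ (q * w * q)) ω - ρ d ((Q.E (ρ x) - ρ a) ω) =
        ρ (q * w * d) ω := by
      rw [hQE, ← R.sub S hSM a haM, ← hw, ← mul_apply_eq_comp, ← R.mul_right d hdM w hwM hpw,
        ← R.sub w hwM _ hyM, ← _root_.sub_apply,
        ← R.sub _ (sub_mem hwM hyM) _ (mul_mem hdM hwM)]
      congr 2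
      rw [hd]
      noncomm_ring
    rw [e1, ← sq_le_sq₀ (norm_nonneg _) hκ.le]
    have h1 := R.small _ (mul_mem hqw hdM)
    have h2 := left_bound hpos hqw hdM
    have h3 : ‖q * w‖ ≤ 2 * ‖x‖ := by
      refine (norm_mul_le _ _).trans ?_
      calc ‖q‖ * ‖w‖ ≤ 1 * (2 * ‖x‖) :=
            mul_le_mul (proj_opNorm_le hq) hwn (norm_nonneg _) zero_le_one
        _ = 2 * ‖x‖ := one_mul _
    have h4 : ‖q * w‖ ^ 2 ≤ 4 * ‖x‖ ^ 2 := by
      have := pow_le_pow_left₀ (norm_nonneg _) h3 2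
      linarith only [this, show (2 * ‖x‖) ^ 2 = 4 * ‖x‖ ^ 2 by ring]
    have h5 := mul_le_mul_of_nonneg_right h4 hψd
    nlinarith only [h1, h2, h5, hκ1, hψd]

end rep

end Vale.Agent.P078.TT
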